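import Mathlib
import Vale.Agent.P150.Poly
import Vale.Agent.P087.Model

/-!
# P087: Gaussian expectation of polynomials in the coordinates of Hermitian matrices
-/

namespace VAgent.P087

open MeasureTheory ProbabilityTheory Finset MvPolynomial Matrix
open scoped NNReal

noncomputable section

/-- Coordinates of independent Gaussian Hermitian matrices normalised to `ntr (G * G) ≈ 1`. -/
def gaussCoord (J : Type) [Fintype J] (k : ℕ) : Measure (J → Fin k → Fin k → ℝ) :=
  Measure.pi fun _ => Measure.pi fun _ => Measure.pi fun _ =>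
    gaussianReal 0 ((k : NNReal))⁻¹

variable {J : Type} [Fintype J] {k : ℕ}

instance : IsProbabilityMeasure (gaussCoord J k) := by unfold gaussCoord; infer_instance

/-- The index of a coordinate. -/
abbrev Idx (J : Type) (k : ℕ) : Type := J × Fin k × Fin k

/-- Polynomials in the coordinates. -/
abbrev CPol (J : Type) (k : ℕ) : Type := MvPolynomial (Idx J k) ℂ

/-- Evaluation at a sample. -/
def ev (x : J → Fin k → Fin k → ℝ) : CPol J k →+* ℂ :=
  eval fun i => (x i.1 i.2.1 i.2.2 : ℂ)

lemma ev_monomial (x : J → Fin k → Fin k → ℝ) (s : Idx J k →₀ ℕ) (a : ℂ) :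
    ev x (monomial s a) = a * ∏ j, ∏ c, ∏ d, (x j c d : ℂ) ^ s (j, c, d) := by
  rw [ev, eval_monomial, Finsupp.prod_fintype _ _ fun _ ↦ pow_zero _, Fintype.prod_prod_type]
  simp only [Fintype.prod_prod_type]

omit [Fintype J] in
lemma integrable_cpow (v : ℝ≥0) (n : ℕ) :
    Integrable (fun x : ℝ ↦ (x : ℂ) ^ n) (gaussianReal 0 v) := by
  rcases Nat.eq_zero_or_pos n with h | h
  · simp [h]
  · refine ((memLp_id_gaussianReal (n : ℝ≥0)).integrable_norm_pow').mono' (by fun_prop)
      (.of_forall fun x ↦ ?_)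
    simp

lemma integrable_ev (p : CPol J k) : Integrable (fun x ↦ ev x p) (gaussCoord J k) := by
  induction p using MvPolynomial.induction_on' with
  | monomial s a =>
    simp only [ev_monomial, gaussCoord]
    exact (Integrable.fintype_prod (f := fun j (z : Fin k → Fin k → ℝ) ↦
      ∏ c, ∏ d, (z c d : ℂ) ^ s (j, c, d)) fun j ↦
        Integrable.fintype_prod (f := fun c (z : Fin k → ℝ) ↦ ∏ d, (z d : ℂ) ^ s (j, c, d)) fun c ↦
          Integrable.fintype_prod (f := fun d (z : ℝ) ↦ (z : ℂ) ^ s (j, c, d)) fun d ↦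
            integrable_cpow _ _).const_mul a
  | add p q hp hq => simp only [map_add]; exact hp.add hq

/-- The expectation of a polynomial. -/
def expv (p : CPol J k) : ℂ := ∫ x, ev x p ∂gaussCoord J k

lemma expv_add (p q : CPol J k) : expv (p + q) = expv p + expv q := by
  simp only [expv, map_add]
  exact integral_add (integrable_ev p) (integrable_ev q)

lemma expv_C_mul (c : ℂ) (p : CPol J k) : expv (C c * p) = c * expv p := by
  simp only [expv, ev, map_mul, eval_C]
  exact integral_const_mul _ _

lemma expv_smul (c : ℂ) (p : CPol J k) : expv (c • p) = c * expv p := by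
  rw [smul_eq_C_mul, expv_C_mul]

lemma expv_sum {κ : Type*} (s : Finset κ) (f : κ → CPol J k) :
    expv (∑ i ∈ s, f i) = ∑ i ∈ s, expv (f i) := by
  simp only [expv, map_sum]
  exact integral_finsetSum _ fun i _ ↦ integrable_ev _

lemma expv_one : expv (1 : CPol J k) = 1 := by simp [expv]

lemma expv_zero : expv (0 : CPol J k) = 0 := by simp [expv]

lemma expv_list_sum {κ : Type*} (l : List κ) (f : κ → CPol J k) :
    expv (l.map f).sum = (l.map fun i ↦ expv (f i)).sum := by
  induction l with
  | nil => simp [expv_zero]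
  | cons a l ih => simp [expv_add, ih]

omit [Fintype J] in
/-- Moments of a centred Gaussian. -/
lemma moment_succ (v : ℝ≥0) (n : ℕ) :
    ∫ x, x ^ (n + 1) ∂gaussianReal 0 v = (v : ℝ) * n * ∫ x, x ^ (n - 1) ∂gaussianReal 0 v := by
  have h : ∀ m : ℕ, ∫ x, x ^ m ∂gaussianReal 0 v = √(v : ℝ) ^ m * Vale.Agent.P150.gm m := by
    intro m
    have e : gaussianReal 0 v = (gaussianReal 0 1).map fun x ↦ √(v : ℝ) * x := by
      rw [gaussianReal_map_const_mul, mul_zero]
      congr 1
      ext
      simp
    rw [e, integral_map (by fun_prop) (by fun_prop)]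
    simp only [mul_pow, integral_const_mul, Vale.Agent.P150.gm]
  rw [h, h, Vale.Agent.P150.gm_succ]
  cases n with
  | zero => simp
  | succ m =>
    rw [Nat.add_sub_cancel, pow_succ, pow_succ, mul_assoc (√(v : ℝ) ^ m),
      Real.mul_self_sqrt v.coe_nonneg]
    ring

lemma expv_monomial (s : Idx J k →₀ ℕ) (a : ℂ) :
    expv (monomial s a) = a * ∏ i, ((∫ x, x ^ s i ∂gaussianReal 0 ((k : ℝ≥0))⁻¹ : ℝ) : ℂ) := by
  simp only [expv, ev_monomial, gaussCoord]
  rw [integral_const_mul, integral_fintype_prod_eq_prod fun j (z : Fin k → Fin k → ℝ) ↦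
    ∏ c, ∏ d, (z c d : ℂ) ^ s (j, c, d)]
  simp only [Fintype.prod_prod_type]
  congr 1
  refine prod_congr rfl fun j _ ↦ ?_
  rw [integral_fintype_prod_eq_prod fun c (z : Fin k → ℝ) ↦ ∏ d, (z d : ℂ) ^ s (j, c, d)]
  refine prod_congr rfl fun c _ ↦ ?_
  rw [integral_fintype_prod_eq_prod fun d (z : ℝ) ↦ (z : ℂ) ^ s (j, c, d)]
  refine prod_congr rfl fun d _ ↦ ?_
  rw [← integral_complex_ofReal]
  exact integral_congr_ae (.of_forall fun x ↦ (Complex.ofReal_pow x _).symm)

/-- Gaussian integration by parts. -/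
lemma expv_X_mul (i : Idx J k) (p : CPol J k) :
    expv (X i * p) = (k : ℂ)⁻¹ * expv (pderiv i p) := by
  classical
  induction p using MvPolynomial.induction_on' with
  | monomial s a =>
    rw [pderiv_monomial, X, monomial_mul, one_mul, expv_monomial, expv_monomial,
      ← mul_prod_erase univ _ (mem_univ i), ← mul_prod_erase univ _ (mem_univ i)]
    have h1 : ∀ w ∈ univ.erase i, ((∫ x, x ^ (Finsupp.single i 1 + s : Idx J k →₀ ℕ) w
          ∂gaussianReal 0 ((k : ℝ≥0))⁻¹ : ℝ) : ℂ) =
        ((∫ x, x ^ (s - Finsupp.single i 1 : Idx J k →₀ ℕ) w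
          ∂gaussianReal 0 ((k : ℝ≥0))⁻¹ : ℝ) : ℂ) := by
      intro w hw
      simp [Finsupp.single_eq_of_ne (mem_erase.1 hw).1]
    rw [prod_congr rfl h1]
    simp only [Finsupp.add_apply, Finsupp.single_eq_same, Finsupp.tsub_apply]
    rw [add_comm 1, moment_succ]
    push_cast
    ring
  | add p q hp hq => rw [mul_add, expv_add, hp, hq, map_add, expv_add, mul_add]

/-- The normalisation of an off-diagonal coordinate. -/
def s2 : ℂ := ((√2 : ℝ) : ℂ)⁻¹

lemma s2_sq : s2 * s2 = 1 / 2 := by
  rw [s2, ← mul_inv, ← Complex.ofReal_mul, Real.mul_self_sqrt (by norm_num)]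
  norm_num

/-- The matrix `herm (x j)` as a matrix of polynomials. -/
def HP (j : J) : Matrix (Fin k) (Fin k) (CPol J k) :=
  Matrix.of fun a b =>
    if a = b then X (j, a, a)
    else if a < b then s2 • (X (j, a, b) + Complex.I • X (j, b, a))
    else s2 • (X (j, b, a) - Complex.I • X (j, a, b))

omit [Fintype J] in
lemma ev_HP (x : J → Fin k → Fin k → ℝ) (j : J) : (HP j).map (ev x) = herm (x j) := by
  ext a b
  simp only [HP, herm, Matrix.map_apply, of_apply, s2]
  split_ifs <;> simp [ev, smul_eq_C_mul, div_eq_inv_mul, mul_add, mul_sub]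

/-- The derivation dual to the entry `(a, b)` of `HP j`. -/
def DH (j : J) (a b : Fin k) : Derivation ℂ (CPol J k) (CPol J k) :=
  if a = b then pderiv (j, a, a)
  else if a < b then s2 • (pderiv (j, a, b) + Complex.I • pderiv (j, b, a))
  else s2 • (pderiv (j, b, a) - Complex.I • pderiv (j, a, b))

lemma expv_HP_mul (j : J) (a b : Fin k) (p : CPol J k) :
    expv (HP j a b * p) = (k : ℂ)⁻¹ * expv (DH j a b p) := by
  simp only [HP, DH, of_apply]
  split_ifs
  · exact expv_X_mul _ _
  · simp only [smul_mul_assoc, add_mul, Derivation.smul_apply, Derivation.add_apply, expv_smul,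
      expv_add, expv_X_mul]
    ring
  · simp only [smul_mul_assoc, sub_eq_add_neg, add_mul, neg_mul, Derivation.smul_apply,
      Derivation.add_apply, Derivation.neg_apply, ← neg_smul, expv_smul, expv_add, expv_X_mul]
    ring

omit [Fintype J] in
lemma DH_HP [DecidableEq J] (j l : J) (a b c d : Fin k) :
    DH j a b (HP l c d) = if j = l ∧ a = d ∧ b = c then 1 else 0 := by
  by_cases hjl : l = j
  swap
  · rw [if_neg (fun h ↦ hjl h.1.symm)]
    simp only [HP, DH, of_apply]
    split_ifs <;> simp [pderiv_X, hjl]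
  subst hjl
  have key : ∀ p q : Idx J k, pderiv p (X q : CPol J k) = if q = p then 1 else 0 := by
    intro p q
    rw [pderiv_X, Pi.single_apply]
  have hI : Complex.I * Complex.I = -1 := Complex.I_mul_I
  have hs := s2_sq
  rcases lt_trichotomy a b with hab | rfl | hab <;> rcases lt_trichotomy c d with hcd | rfl | hcd
  all_goals
    try have hab1 := hab.ne
    try have hab2 := hab.not_gt
    try have hcd1 := hcd.ne
    try have hcd2 := hcd.not_gt
    try have hab3 := hab.ne'
    try have hcd3 := hcd.ne'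
    simp only [HP, DH, of_apply, lt_irrefl, *,
      if_true, if_false, Derivation.smul_apply, Derivation.add_apply, Derivation.sub_apply,
      map_add, map_sub, Derivation.map_smul, Prod.mk.injEq, true_and]
  all_goals split_ifs <;> (try omega)
  all_goals match_scalars
  all_goals (simp only [mul_one, mul_neg, ← mul_assoc]; try ring_nf)
  all_goals (simp only [Complex.I_sq, sq s2, hs]; norm_num)

end

end VAgent.P087
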