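import Mathlib
import Vale.Agent.P087.Matrices.Gauss

/-!
# P087: mixed moments of traces of words in the shift and Gaussian matrices converge to `tau`
-/

namespace VAgent.P087

open MeasureTheory Finset MvPolynomial Matrix Filter
open scoped Topology

noncomputable section

variable {J : Type} [Fintype J] [DecidableEq J] {k : ℕ}

/-- A letter as a matrix of polynomials. -/
def LP : Letter J → Matrix (Fin k) (Fin k) (CPol J k)
  | Sum.inl i => (letterMat (J := J) (fun _ => 0) (Sum.inl i)).map C
  | Sum.inr j => HP j

/-- A word as a matrix of polynomials. -/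
def WP (w : List (Letter J)) : Matrix (Fin k) (Fin k) (CPol J k) := (w.map LP).prod

/-- The normalised trace of a matrix of polynomials. -/
def nP (M : Matrix (Fin k) (Fin k) (CPol J k)) : CPol J k := C (k : ℂ)⁻¹ * M.trace

/-- A product of traces of words. -/
def FP (L : List (List (Letter J))) : CPol J k := (L.map fun w => nP (WP w)).prod

omit [Fintype J] [DecidableEq J] in
lemma ev_WP (x : J → Fin k → Fin k → ℝ) (w : List (Letter J)) :
    (WP w).map (ev x) = (w.map (letterMat fun j => herm (x j))).prod := by
  induction w with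
  | nil => simp [WP]
  | cons a w ih =>
    simp only [WP, List.map_cons, List.prod_cons, Matrix.map_mul] at ih ⊢
    rw [ih]
    congr 1
    rcases a with i | j
    · ext c d
      simp [LP, letterMat, ev]
    · exact ev_HP x j

omit [Fintype J] [DecidableEq J] in
lemma ev_nP (x : J → Fin k → Fin k → ℝ) (w : List (Letter J)) :
    ev x (nP (WP w)) = ntr ((w.map (letterMat fun j => herm (x j))).prod) := by
  rw [← ev_WP x w, nP, ntr, map_mul]
  simp [ev, Matrix.trace]

omit [Fintype J] [DecidableEq J] in
lemma ev_FP (x : J → Fin k → Fin k → ℝ) (L : List (List (Letter J))) :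
    ev x (FP L) = (L.map fun w => ntr ((w.map (letterMat fun j => herm (x j))).prod)).prod := by
  simp [FP, map_list_prod, List.map_map, Function.comp_def, ev_nP]

omit [Fintype J] [DecidableEq J] in
lemma WP_append (u v : List (Letter J)) : (WP (u ++ v) : Matrix _ _ (CPol J k)) = WP u * WP v := by
  simp [WP, List.map_append, List.prod_append]

omit [Fintype J] [DecidableEq J] in
lemma nP_comm (u v : List (Letter J)) : (nP (WP (u ++ v)) : CPol J k) = nP (WP (v ++ u)) := by
  rw [nP, nP, WP_append, WP_append, Matrix.trace_mul_comm]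

omit [Fintype J] in
lemma DH_LP (j : J) (x : Letter J) (a b c d : Fin k) :
    DH j a b (LP x c d) = if x = Sum.inr j ∧ a = d ∧ b = c then 1 else 0 := by
  rcases x with i | l
  · rw [if_neg (by simp)]
    exact (DH j a b).map_algebraMap _
  · simp only [LP, DH_HP, Sum.inr.injEq, eq_comm (a := j)]

omit [Fintype J] in
lemma DH_WP (j : J) (a b : Fin k) (w : List (Letter J)) : ∀ c d,
    DH j a b (WP w c d) = ∑ q : Fin w.length, if w.get q = Sum.inr j then
      WP (w.take q) c b * WP (w.drop (q + 1)) a d else 0 := by
  induction w with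
  | nil =>
    intro c d
    simp only [WP, List.map_nil, List.prod_nil, Matrix.one_apply]
    split <;> simp
  | cons x w ih =>
    intro c d
    simp only [WP, List.map_cons, List.prod_cons, Matrix.mul_apply, map_sum, Derivation.leibniz,
      smul_eq_mul, DH_LP]
    rw [sum_add_distrib, add_comm]
    refine Eq.trans ?_ (Fin.sum_univ_succ (n := w.length) _).symm
    congr 1
    · simp only [List.get_eq_getElem, Fin.val_zero, List.getElem_cons_zero, List.take_zero,
        List.map_nil, List.prod_nil, zero_add, List.drop_succ_cons, List.drop_zero]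
      by_cases hx : x = Sum.inr j
      · simp [hx, Matrix.one_apply, mul_comm, eq_comm (a := b), ite_and]
      · simp [hx]
    · simp only [List.get_eq_getElem, Fin.val_succ, List.getElem_cons_succ, List.take_succ_cons,
        List.drop_succ_cons, List.map_cons, List.prod_cons, WP] at ih ⊢
      simp only [ih, mul_sum]
      rw [sum_comm]
      refine sum_congr rfl fun q _ => ?_
      split_ifs
      · rw [Matrix.mul_apply, sum_mul]
        exact sum_congr rfl fun e _ => by ring
      · simp

omit [Fintype J] in
/-- The contraction with a derivative of a trace. -/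
lemma sum_DH_nP (j : J) (M w : List (Letter J)) :
    ∑ a, ∑ b, WP M b a * DH j a b (nP (WP w) : CPol J k) =
      ∑ q : Fin w.length, if w.get q = Sum.inr j then
        nP (WP (M ++ w.drop (q + 1) ++ w.take q)) else 0 := by
  simp only [nP, Derivation.leibniz, Matrix.trace, Matrix.diag, map_sum, DH_WP, smul_eq_mul,
    WP_append, Matrix.mul_assoc]
  simp only [Matrix.mul_apply, mul_sum, Derivation.map_algebraMap, ← MvPolynomial.algebraMap_eq,
    mul_zero, add_zero]
  rw [sum_congr rfl fun a _ => sum_congr rfl fun b _ => sum_comm]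
  rw [sum_congr rfl fun a _ => sum_comm, sum_comm]
  refine sum_congr rfl fun q _ => ?_
  split_ifs
  · rw [sum_comm]
    refine sum_congr rfl fun b _ => sum_congr rfl fun a _ => sum_congr rfl fun c _ => ?_
    ring
  · simp

omit [Fintype J] in
/-- The contraction with a derivative of the word itself. -/
lemma sum_DH_WP (j : J) (M : List (Letter J)) :
    C (k : ℂ)⁻¹ * (C (k : ℂ)⁻¹ * ∑ a, ∑ b, DH j a b (WP M b a : CPol J k)) =
      ∑ q : Fin M.length, if M.get q = Sum.inr j then
        nP (WP (M.take q)) * nP (WP (M.drop (q + 1))) else 0 := by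
  simp only [DH_WP]
  rw [sum_congr rfl fun a _ => sum_comm, sum_comm, mul_sum, mul_sum]
  refine sum_congr rfl fun q _ => ?_
  split_ifs
  · simp only [nP, Matrix.trace, Matrix.diag, mul_sum, sum_mul]
    exact sum_congr rfl fun b _ => sum_congr rfl fun a _ => by ring
  · simp

/-- The number of Gaussian letters. -/
def nG (w : List (Letter J)) : ℕ := w.countP Sum.isRight

/-- The induction measure. -/
def wt (L : List (List (Letter J))) : ℕ :=
  (L.map fun w => 2 * nG w + 1).sum

omit [Fintype J] [DecidableEq J] in
lemma wt_cons (w : List (Letter J)) (L : List (List (Letter J))) :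
    wt (w :: L) = 2 * nG w + 1 + wt L := by simp [wt]

omit [Fintype J] [DecidableEq J] in
lemma countP_split (w : List (Letter J)) (q : Fin w.length) {j : J} (h : w.get q = Sum.inr j) :
    nG (w.take q) + nG (w.drop (q + 1)) + 1 = nG w := by
  conv_rhs => rw [nG, ← List.take_append_drop q w, List.drop_eq_getElem_cons q.2]
  rw [List.get_eq_getElem] at h
  simp [nG, List.countP_cons, h, add_assoc]

omit [Fintype J] in
/-- The cross terms of the Schwinger–Dyson equation. -/
lemma exists_cross (j : J) (M : List (Letter J)) (L : List (List (Letter J))) :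
    ∃ Ls : List (List (List (Letter J))),
      (∀ L' ∈ Ls, wt L' < 2 * nG M + wt L) ∧
      ∀ k : ℕ, ∑ a, ∑ b, WP M b a * DH j a b (FP L : CPol J k) = (Ls.map FP).sum := by
  induction L with
  | nil => exact ⟨[], by simp, fun k => by simp [FP]⟩
  | cons w L ih =>
    obtain ⟨Ls, hLs, hk⟩ := ih
    refine ⟨(((List.finRange w.length).filter fun q => decide (w.get q = Sum.inr j)).map fun q : Fin w.length =>
      (M ++ w.drop (q + 1) ++ w.take q) :: L) ++ Ls.map (w :: ·), ?_, fun k => ?_⟩
    · intro L' hL'
      rcases List.mem_append.1 hL' with h | h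
      · obtain ⟨q, hq, rfl⟩ := List.mem_map.1 h
        have := countP_split w q (of_decide_eq_true (List.mem_filter.1 hq).2)
        simp only [wt_cons, nG, List.countP_append] at *
        omega
      · obtain ⟨L'', h'', rfl⟩ := List.mem_map.1 h
        have := hLs L'' h''
        simp only [wt_cons]
        omega
    · have e : (FP (w :: L) : CPol J k) = nP (WP w) * FP L := by simp [FP]
      simp only [e, Derivation.leibniz, smul_eq_mul, mul_add, sum_add_distrib]
      rw [List.map_append, List.sum_append, add_comm]
      congr 1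
      · have h1 : ∀ a b : Fin k, WP M b a * (FP L * DH j a b (nP (WP w) : CPol J k)) =
            FP L * (WP M b a * DH j a b (nP (WP w))) := fun a b => by ring
        simp only [h1, ← mul_sum, sum_DH_nP, List.map_map]
        rw [mul_sum, ← List.sum_toFinset _ ((List.nodup_finRange _).filter _)]
        simp only [List.toFinset_filter, List.toFinset_finRange, decide_eq_true_eq, sum_filter]
        refine sum_congr rfl fun q _ => ?_
        split_ifs <;> simp [FP, mul_comm]
      · have h1 : ∀ a b : Fin k, WP M b a * (nP (WP w) * DH j a b (FP L : CPol J k)) =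
            nP (WP w) * (WP M b a * DH j a b (FP L)) := fun a b => by ring
        simp only [h1, ← mul_sum, hk k, List.map_map]
        rw [← List.sum_map_mul_left]
        simp [FP, Function.comp_def]

/-- The Schwinger–Dyson equation. -/
lemma expv_cons (j : J) (M : List (Letter J)) (L : List (List (Letter J))) :
    expv (nP (WP (Sum.inr j :: M)) * FP L : CPol J k) =
      (∑ q : Fin M.length, if M.get q = Sum.inr j then
        expv (FP (M.take q :: M.drop (q + 1) :: L) : CPol J k) else 0) +
      ((k : ℂ)⁻¹ * (k : ℂ)⁻¹) * expv (∑ a, ∑ b, WP M b a * DH j a b (FP L : CPol J k)) := by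
  have e : (nP (WP (Sum.inr j :: M)) * FP L : CPol J k) =
      C (k : ℂ)⁻¹ * ∑ a, ∑ b, HP j a b * (WP M b a * FP L) := by
    simp only [nP, Matrix.trace, Matrix.diag, WP, List.map_cons, List.prod_cons, Matrix.mul_apply,
      LP, mul_sum, sum_mul, mul_assoc]
  rw [e, expv_C_mul]
  simp only [expv_sum, expv_HP_mul, Derivation.leibniz, smul_eq_mul, expv_add, mul_add,
    sum_add_distrib, mul_sum]
  rw [add_comm]
  congr 1
  · have h1 : ∀ a b, (k : ℂ)⁻¹ * ((k : ℂ)⁻¹ * expv (FP L * DH j a b (WP M b a) : CPol J k)) =
        expv (C (k : ℂ)⁻¹ * (C (k : ℂ)⁻¹ * DH j a b (WP M b a)) * FP L) := by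
      intro a b
      rw [← expv_C_mul, ← expv_C_mul]
      congr 1
      ring
    simp only [h1, ← expv_sum, ← sum_mul, ← mul_sum, sum_DH_WP]
    rw [sum_mul, expv_sum]
    refine sum_congr rfl fun q _ => ?_
    split_ifs <;> simp [FP, mul_assoc, expv_zero]
  · exact sum_congr rfl fun a _ => sum_congr rfl fun b _ => by ring

omit [Fintype J] [DecidableEq J] in
lemma exists_split (w : List (Letter J)) :
    (∀ a ∈ w, a.isRight = false) ∨
      ∃ u j r, w = u ++ Sum.inr j :: r ∧ ∀ a ∈ u, a.isRight = false := by
  induction w with
  | nil => simp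
  | cons a w ih =>
    rcases a with i | j
    · rcases ih with h | ⟨u, j, r, rfl, hu⟩
      · left; simpa using h
      · exact Or.inr ⟨Sum.inl i :: u, j, r, rfl, by simpa using hu⟩
    · exact Or.inr ⟨[], j, w, rfl, by simp⟩

omit [Fintype J] in
lemma tau_of_forall (w : List (Letter J)) (h : ∀ a ∈ w, a.isRight = false) :
    tau w = if charge w = 0 then 1 else 0 := by
  rw [tau, dif_neg]
  rintro ⟨l, hl⟩
  simp [List.get_eq_getElem, h _ (List.getElem_mem l.2)] at hl

omit [Fintype J] in
lemma tau_split (u : List (Letter J)) (j : J) (r : List (Letter J))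
    (hu : ∀ a ∈ u, a.isRight = false) :
    tau (u ++ Sum.inr j :: r) = ∑ q : Fin (r ++ u).length,
      if (r ++ u).get q = Sum.inr j then
        tau ((r ++ u).take q) * tau ((r ++ u).drop (q + 1)) else 0 := by
  have hlt : u.length < (u ++ Sum.inr j :: r).length := by simp
  have hl : ∃ l : Fin (u ++ Sum.inr j :: r).length, ((u ++ Sum.inr j :: r).get l).isRight :=
    ⟨⟨u.length, hlt⟩, by simp⟩
  rw [tau, dif_pos hl]
  have hf : Fin.find (p := fun l : Fin (u ++ Sum.inr j :: r).length =>
      ((u ++ Sum.inr j :: r).get l).isRight = true) hl = ⟨u.length, hlt⟩ := by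
    rw [Fin.find_eq_iff]
    refine ⟨by simp, fun l hl' => ?_⟩
    have hl'' : (l : ℕ) < u.length := hl'
    simp [List.getElem_append_left hl'', hu _ (List.getElem_mem hl'')]
  generalize hF : Fin.find (p := fun l : Fin (u ++ Sum.inr j :: r).length =>
      ((u ++ Sum.inr j :: r).get l).isRight = true) hl = l₀ at hf ⊢
  subst hf
  simp only [List.get_eq_getElem]
  have e1 : (u ++ Sum.inr j :: r).drop (u.length + 1) = r := by simp [List.drop_append]
  have e2 : (u ++ Sum.inr j :: r).take u.length = u := by simp
  have e3 : (u ++ Sum.inr j :: r)[u.length] = Sum.inr j := by simp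
  rw [e3, e1, e2]

omit [Fintype J] [DecidableEq J] in
lemma shift_prod (w : List (Letter J)) (h : ∀ a ∈ w, a.isRight = false) (hk : 0 < k)
    (G : J → Matrix (Fin k) (Fin k) ℂ) :
    (w.map (letterMat G)).prod = letterMat G (Sum.inl (charge w)) := by
  induction w with
  | nil =>
    ext a b
    simp only [List.map_nil, List.prod_nil, letterMat, charge, List.sum_nil, add_zero, of_apply,
      Matrix.one_apply]
    congr 1
    refine propext ⟨fun h => by rw [h], fun h => ?_⟩
    exact Fin.ext (by
      have := h.eq
      rwa [Int.emod_eq_of_lt (by positivity) (by exact_mod_cast a.2),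
        Int.emod_eq_of_lt (by positivity) (by exact_mod_cast b.2), Nat.cast_inj] at this)
  | cons x w ih =>
    rcases x with i | j
    swap
    · simp at h
    rw [List.map_cons, List.prod_cons, ih fun a ha => h a (List.mem_cons_of_mem _ ha)]
    ext a b
    have hc : charge (Sum.inl i :: w) = i + charge w := by simp [charge]
    simp only [letterMat, Matrix.mul_apply, of_apply, hc, mul_ite, mul_one, mul_zero]
    set e' : Fin k := ⟨((((b : ℕ) : ℤ) + charge w) % (k : ℤ)).toNat, by
      have := Int.emod_lt_of_pos (((b : ℕ) : ℤ) + charge w) (by exact_mod_cast hk : (0:ℤ) < k)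
      have := Int.emod_nonneg (((b : ℕ) : ℤ) + charge w) (by positivity : (k:ℤ) ≠ 0)
      omega⟩ with he'
    have hmod : ((e' : ℕ) : ℤ) ≡ ((b : ℕ) : ℤ) + charge w [ZMOD (k : ℤ)] := by
      rw [he', Fin.val_mk, Int.toNat_of_nonneg (Int.emod_nonneg _ (by positivity))]
      exact Int.mod_modEq _ _
    rw [sum_eq_single e']
    · rw [if_pos hmod]
      have hiff : (((a : ℕ) : ℤ) ≡ ((e' : ℕ) : ℤ) + i [ZMOD (k : ℤ)]) ↔
          (((a : ℕ) : ℤ) ≡ ((b : ℕ) : ℤ) + (i + charge w) [ZMOD (k : ℤ)]) := by
        have h2 := hmod.add_right i
        rw [add_assoc, add_comm (charge w) i] at h2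
        exact ⟨fun h => h.trans h2, fun h => h.trans h2.symm⟩
      simp [hiff]
    · intro c _ hc'
      refine if_neg fun h' => hc' (Fin.ext ?_)
      have := (h'.trans hmod.symm).eq
      rwa [Int.emod_eq_of_lt (by positivity) (by exact_mod_cast c.2),
        Int.emod_eq_of_lt (by positivity) (by exact_mod_cast e'.2), Nat.cast_inj] at this
    · simp

omit [Fintype J] in
lemma nP_const (w : List (Letter J)) (h : ∀ a ∈ w, a.isRight = false)
    (hk : (charge w).natAbs < k) : (nP (WP w) : CPol J k) = C (tau w) := by
  have hk0 : 0 < k := by omega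
  have hW : (WP w : Matrix (Fin k) (Fin k) (CPol J k)) =
      ((w.map (letterMat (J := J) fun _ => 0)).prod).map C := by
    clear hk
    induction w with
    | nil => simp only [WP, List.map_nil, List.prod_nil]; exact (Matrix.map_one C (map_zero _) (map_one _)).symm
    | cons a w ih =>
      rcases a with i | j
      · simp only [WP, List.map_cons, List.prod_cons, Matrix.map_mul] at ih ⊢
        rw [ih fun a ha => h a (List.mem_cons_of_mem _ ha)]
        rfl
      · simp at h
  rw [nP, hW, shift_prod w h hk0, tau_of_forall w h]
  simp only [Matrix.trace, Matrix.diag, Matrix.map_apply, letterMat, of_apply, ← map_sum, ← map_mul]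
  congr 1
  have : ∀ a : Fin k, (((a : ℕ) : ℤ) ≡ ((a : ℕ) : ℤ) + charge w [ZMOD (k : ℤ)]) ↔ charge w = 0 := by
    intro a
    rw [Int.modEq_iff_dvd, add_sub_cancel_left]
    refine ⟨fun h => ?_, fun h => by simp [h]⟩
    exact Int.eq_zero_of_dvd_of_natAbs_lt_natAbs h (by simpa using hk)
  simp only [this]
  split_ifs <;> simp [hk0.ne']

/-- Products of normalised traces converge to products of the law. -/
theorem tendsto_expv (L : List (List (Letter J))) :
    Tendsto (fun k => expv (FP L : CPol J k)) atTop (𝓝 (L.map tau).prod) := by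
  induction hm : wt L using Nat.strong_induction_on generalizing L with
  | _ m ih =>
    subst hm
    rcases L with _ | ⟨w, L⟩
    · simp [FP, expv_one]
    rcases exists_split w with hw | ⟨u, j, r, rfl, hu⟩
    · have hL := ih (wt L) (by rw [wt_cons]; omega) L rfl
      rw [List.map_cons, List.prod_cons]
      refine (hL.const_mul (tau w)).congr' ?_
      filter_upwards [eventually_gt_atTop (charge w).natAbs] with k hk
      rw [← expv_C_mul, ← nP_const w hw hk]
      simp [FP]
    · set M := r ++ u with hM
      obtain ⟨Ls, hLs, hcross⟩ := exists_cross j M L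
      have hcnt : nG (u ++ Sum.inr j :: r) =
          nG M + 1 := by
        simp [hM, nG, List.countP_cons]
        omega
      have hA : ∀ q : Fin M.length, Tendsto (fun k => if M.get q = Sum.inr j then
          expv (FP (M.take q :: M.drop (q + 1) :: L) : CPol J k) else 0) atTop
          (𝓝 (if M.get q = Sum.inr j then
            (List.map tau (M.take q :: M.drop (q + 1) :: L)).prod else 0)) := by
        intro q
        split_ifs with hq
        · refine ih _ ?_ _ rfl
          have := countP_split M q hq
          simp only [wt_cons]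
          omega
        · exact tendsto_const_nhds
      have hB : Tendsto (fun k : ℕ => ((k : ℂ)⁻¹ * (k : ℂ)⁻¹) *
          expv (Ls.map FP).sum (J := J) (k := k)) atTop (𝓝 0) := by
        have h0 : Tendsto (fun k : ℕ => (k : ℂ)⁻¹) atTop (𝓝 0) :=
          tendsto_inv_atTop_nhds_zero_nat
        have h1 : Tendsto (fun k : ℕ => expv (Ls.map FP).sum (J := J) (k := k)) atTop
            (𝓝 (Ls.map fun L' => (L'.map tau).prod).sum) := by
          simp only [expv_list_sum]
          refine tendsto_list_sum _ fun L' hL' => ih _ ?_ _ rfl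
          have := hLs L' hL'
          simp only [wt_cons]
          omega
        simpa using (h0.mul h0).mul h1
      have hlim := (tendsto_finsetSum univ fun q _ => hA q).add hB
      rw [add_zero] at hlim
      rw [List.map_cons, List.prod_cons, tau_split u j r hu, sum_mul]
      refine Tendsto.congr (fun k => ?_) (hlim.trans (le_of_eq ?_))
      · have e : (FP ((u ++ Sum.inr j :: r) :: L) : CPol J k) =
            nP (WP (Sum.inr j :: M)) * FP L := by
          rw [hM, ← List.cons_append, ← nP_comm u]
          simp [FP]
        rw [e, expv_cons, hcross k]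
      · congr 1
        refine sum_congr rfl fun q _ => ?_
        split_ifs <;> simp [hM, mul_assoc]

end

end VAgent.P087
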