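import Mathlib
import Vale.Agent.P087.Matrices.Gauss

/-!
# P087: Gaussian Hermitian matrices have operator norm at most `16` with high probability
-/

namespace VAgent.P087

open MeasureTheory ProbabilityTheory Finset Filter Matrix
open scoped NNReal Topology ComplexConjugate InnerProductSpace

noncomputable section

variable {J : Type} [Fintype J] {k : ℕ}

lemma exists_net (k : ℕ) : ∃ N : Finset (EuclideanSpace ℂ (Fin k)),
    N.card ≤ 5 ^ (2 * k) ∧ (∀ v ∈ N, ‖v‖ = 1) ∧
      ∀ u : EuclideanSpace ℂ (Fin k), ‖u‖ = 1 → ∃ v ∈ N, ‖u - v‖ < 1 / 2 := by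
  classical
  set P : ℕ → Prop := fun n => ∃ N : Finset (EuclideanSpace ℂ (Fin k)), N.card = n ∧
    (∀ v ∈ N, ‖v‖ = 1) ∧ ∀ v ∈ N, ∀ w ∈ N, v ≠ w → 1 / 2 ≤ ‖v - w‖
  have hdim : Module.finrank ℝ (EuclideanSpace ℂ (Fin k)) = 2 * k := by
    rw [← Module.finrank_mul_finrank ℝ ℂ (EuclideanSpace ℂ (Fin k)), Complex.finrank_real_complex,
      finrank_euclideanSpace_fin]
  have hbound : ∀ n, P n → n ≤ 5 ^ (2 * k) := by
    rintro n ⟨N, rfl, h1, h2⟩
    have hinj : Function.Injective fun v : EuclideanSpace ℂ (Fin k) => (2 : ℝ) • v :=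
      fun v w h => smul_right_injective _ two_ne_zero h
    rw [← Finset.card_image_of_injective N hinj, ← hdim]
    refine Besicovitch.card_le_of_separated _ ?_ ?_
    · intro c hc
      obtain ⟨v, hv, rfl⟩ := Finset.mem_image.1 hc
      simp [norm_smul, h1 v hv]
    · intro c hc d hd hcd
      obtain ⟨v, hv, rfl⟩ := Finset.mem_image.1 hc
      obtain ⟨w, hw, rfl⟩ := Finset.mem_image.1 hd
      have h := h2 v hv w hw fun h => hcd (by rw [h])
      rw [← smul_sub, norm_smul, Real.norm_two]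
      linarith
  have h0 : P 0 := ⟨∅, by simp, by simp, by simp⟩
  obtain ⟨N, hcard, h1, h2⟩ : P (Nat.findGreatest P (5 ^ (2 * k))) :=
    Nat.findGreatest_spec (Nat.zero_le _) h0
  refine ⟨N, hcard ▸ Nat.findGreatest_le _, h1, fun u hu => ?_⟩
  by_contra hne
  push Not at hne
  have hu' : u ∉ N := fun h => by have := hne u h; norm_num at this
  have hP : P (N.card + 1) := by
    refine ⟨insert u N, by rw [card_insert_of_notMem hu'], ?_, ?_⟩
    · simpa using ⟨hu, h1⟩
    · intro v hv w hw hvw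
      rcases Finset.mem_insert.1 hv with hv | hv <;> rcases Finset.mem_insert.1 hw with hw | hw
      · exact absurd (hv.trans hw.symm) hvw
      · rw [hv]; exact hne w hw
      · rw [hw, norm_sub_rev]; exact hne v hv
      · exact h2 v hv w hw hvw
  have := Nat.le_findGreatest (hbound _ hP) hP
  omega

/-- The bilinear form `re ⟪A v, w⟫`. -/
def form (A : Matrix (Fin k) (Fin k) ℂ) (v w : EuclideanSpace ℂ (Fin k)) : ℝ :=
  (⟪Matrix.toEuclideanCLM (𝕜 := ℂ) A v, w⟫_ℂ).re

lemma opLe_of_net (A : Matrix (Fin k) (Fin k) ℂ) (N : Finset (EuclideanSpace ℂ (Fin k)))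
    (hnet : ∀ u : EuclideanSpace ℂ (Fin k), ‖u‖ = 1 → ∃ v ∈ N, ‖u - v‖ < 1 / 2)
    (h : ∀ v ∈ N, ∀ w ∈ N, form A v w ≤ 4) : OpLe A 16 := by
  set T := Matrix.toEuclideanCLM (𝕜 := ℂ) A with hT
  have h8 : ∀ v ∈ N, ‖T v‖ ≤ 8 := by
    intro v hv
    rcases eq_or_ne (T v) 0 with h0 | h0
    · simp [h0]
    set x := T v with hx
    set y := ((‖x‖ : ℂ)⁻¹) • x with hy
    have hyn : ‖y‖ = 1 := by simp [hy, norm_smul, h0]
    obtain ⟨w, hw, hd⟩ := hnet y hyn
    have e1 : (⟪x, y⟫_ℂ).re = ‖x‖ := by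
      have hx0 : ‖x‖ ≠ 0 := norm_ne_zero_iff.2 h0
      rw [hy, inner_smul_right, inner_self_eq_norm_sq_to_K]
      simp only [← Complex.ofReal_inv, ← Complex.ofReal_pow, Complex.coe_algebraMap,
        ← Complex.ofReal_mul, Complex.ofReal_re]
      field_simp
    have e2 : (⟪x, y - w⟫_ℂ).re ≤ ‖x‖ * ‖y - w‖ :=
      (Complex.re_le_norm _).trans (norm_inner_le_norm _ _)
    have e3 : ‖x‖ * ‖y - w‖ ≤ ‖x‖ * (1 / 2) := by gcongr
    have e4 : (⟪x, w⟫_ℂ).re ≤ 4 := h v hv w hw
    rw [inner_sub_right, Complex.sub_re, e1] at e2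
    linarith
  have hop : ‖T‖ ≤ 8 + ‖T‖ / 2 := by
    refine T.opNorm_le_bound (by positivity) fun u => ?_
    rcases eq_or_ne u 0 with rfl | hu0
    · simp
    set u₁ := ((‖u‖ : ℂ)⁻¹) • u with hu₁
    have hu1 : ‖u₁‖ = 1 := by simp [hu₁, norm_smul, hu0]
    obtain ⟨v, hv, hd⟩ := hnet u₁ hu1
    have : ‖T u₁‖ ≤ 8 + ‖T‖ / 2 :=
      calc ‖T u₁‖ = ‖T v + T (u₁ - v)‖ := by rw [map_sub]; abel_nf
        _ ≤ ‖T v‖ + ‖T (u₁ - v)‖ := norm_add_le _ _
        _ ≤ 8 + ‖T‖ * ‖u₁ - v‖ := add_le_add (h8 v hv) (T.le_opNorm _)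
        _ ≤ 8 + ‖T‖ * (1 / 2) := by gcongr
        _ = 8 + ‖T‖ / 2 := by ring
    have e : T u₁ = ((‖u‖ : ℂ)⁻¹) • T u := by rw [hu₁, map_smul]
    rw [e, norm_smul, norm_inv, Complex.norm_real, norm_norm, inv_mul_le_iff₀
      (norm_pos_iff.2 hu0)] at this
    linarith
  intro v
  have h1 := T.le_opNorm (WithLp.toLp 2 v)
  have h16 : ‖T‖ ≤ 16 := by linarith
  have h2 : ‖T (WithLp.toLp 2 v)‖ ≤ 16 * ‖(WithLp.toLp 2 v : EuclideanSpace ℂ (Fin k))‖ :=
    h1.trans (by gcongr)
  have h3 := pow_le_pow_left₀ (norm_nonneg _) h2 2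
  rw [mul_pow, EuclideanSpace.norm_sq_eq, EuclideanSpace.norm_sq_eq] at h3
  simpa [hT] using h3

lemma sum_sum_symm {M : Type*} [Fintype M] (f g : M → M → ℝ)
    (h : ∀ a b, f a b + f b a = g a b + g b a) : ∑ a, ∑ b, f a b = ∑ a, ∑ b, g a b := by
  have e : ∑ a, ∑ b, (f a b + f b a) = ∑ a, ∑ b, (g a b + g b a) := by simp only [h]
  simp only [sum_add_distrib] at e
  rw [sum_comm (f := fun a b => f b a), sum_comm (f := fun a b => g b a)] at e
  linarith

/-- The coefficients of `x ↦ form (herm x) v w`. -/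
def formCoef (v w : Fin k → ℂ) (a b : Fin k) : ℝ :=
  if a = b then (conj (w a) * v a).re
  else if a < b then (conj (w a) * v b + conj (w b) * v a).re / √2
  else (Complex.I * (conj (w b) * v a - conj (w a) * v b)).re / √2

lemma form_eq (x : Fin k → Fin k → ℝ) (v w : EuclideanSpace ℂ (Fin k)) :
    form (herm x) v w = ∑ a, ∑ b, formCoef v w a b * x a b := by
  have hform : form (herm x) v w = ∑ a, ∑ b, (conj (herm x a b * v b) * w a).re := by
    simp only [form, PiLp.inner_apply, Matrix.ofLp_toEuclideanCLM, Matrix.mulVec, dotProduct,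
      RCLike.inner_apply, map_sum, mul_sum, Complex.re_sum]
    exact sum_congr rfl fun a _ => sum_congr rfl fun b _ => by rw [mul_comm]
  rw [hform]
  refine sum_sum_symm _ _ fun a b => ?_
  simp only [formCoef, herm, of_apply]
  rcases lt_trichotomy a b with h | rfl | h
  · simp only [h.ne, h.ne', h, h.not_gt, if_true, if_false]
    simp [Complex.div_ofReal_re, Complex.mul_re, Complex.mul_im, Complex.div_ofReal_im]
    ring
  · simp [Complex.mul_re]
    ring
  · simp only [h.ne, h.ne', h, h.not_gt, if_true, if_false]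
    simp [Complex.div_ofReal_re, Complex.mul_re, Complex.mul_im, Complex.div_ofReal_im]
    ring

lemma formCoef_sq_le (v w : EuclideanSpace ℂ (Fin k)) :
    ∑ a, ∑ b, formCoef v w a b ^ 2 ≤ ‖v‖ ^ 2 * ‖w‖ ^ 2 := by
  have h : ∀ a b, formCoef v w a b ^ 2 + formCoef v w b a ^ 2 ≤
      ‖w a‖ ^ 2 * ‖v b‖ ^ 2 + ‖w b‖ ^ 2 * ‖v a‖ ^ 2 := by
    intro a b
    simp only [Complex.sq_norm]
    rw [← Complex.normSq_conj (w a), ← Complex.normSq_conj (w b), formCoef, formCoef]
    have hs : √(2 : ℝ) ^ 2 = 2 := Real.sq_sqrt (by norm_num)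
    rcases lt_trichotomy a b with h | rfl | h
    · simp only [h.ne, h.ne', h, h.not_gt, if_true, if_false, div_pow, hs]
      simp [Complex.normSq_apply, Complex.mul_re, Complex.mul_im]
      nlinarith [sq_nonneg ((w a).re * (v b).im - (w a).im * (v b).re +
          ((w b).re * (v a).im - (w b).im * (v a).re)),
        sq_nonneg ((w a).re * (v b).re + (w a).im * (v b).im -
          ((w b).re * (v a).re + (w b).im * (v a).im))]
    · simp [Complex.normSq_apply, Complex.mul_re]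
      nlinarith [sq_nonneg ((w a).re * (v a).im - (w a).im * (v a).re)]
    · simp only [h.ne, h.ne', h, h.not_gt, if_true, if_false, div_pow, hs]
      simp [Complex.normSq_apply, Complex.mul_re, Complex.mul_im]
      nlinarith [sq_nonneg ((w a).re * (v b).im - (w a).im * (v b).re +
          ((w b).re * (v a).im - (w b).im * (v a).re)),
        sq_nonneg ((w a).re * (v b).re + (w a).im * (v b).im -
          ((w b).re * (v a).re + (w b).im * (v a).im))]
  have e : ∑ a, ∑ b, ‖w a‖ ^ 2 * ‖v b‖ ^ 2 = ‖v‖ ^ 2 * ‖w‖ ^ 2 := by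
    rw [EuclideanSpace.norm_sq_eq, EuclideanSpace.norm_sq_eq, mul_comm, sum_mul_sum]
  have := sum_le_sum fun a (_ : a ∈ univ) => sum_le_sum fun b (_ : b ∈ univ) => h a b
  simp only [sum_add_distrib] at this
  rw [sum_comm (f := fun a b => formCoef v w b a ^ 2),
    sum_comm (f := fun a b => ‖w b‖ ^ 2 * ‖v a‖ ^ 2), e] at this
  linarith

omit [Fintype J] in
lemma integral_exp_lin (c : ℝ) :
    ∫ x, Real.exp (c * x) ∂gaussianReal 0 ((k : ℝ≥0))⁻¹ = Real.exp (c ^ 2 / (2 * k)) := by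
  have h := congrFun (mgf_id_gaussianReal (μ := 0) (v := ((k : ℝ≥0))⁻¹)) c
  simp only [mgf, id_eq] at h
  rw [h]
  push_cast
  congr 1
  ring

lemma exp_sum3 (c x : J → Fin k → Fin k → ℝ) :
    Real.exp (∑ j, ∑ a, ∑ b, c j a b * x j a b) = ∏ j, ∏ a, ∏ b, Real.exp (c j a b * x j a b) := by
  simp only [Real.exp_sum]

lemma integrable_exp3 (c : J → Fin k → Fin k → ℝ) :
    Integrable (fun x => Real.exp (∑ j, ∑ a, ∑ b, c j a b * x j a b)) (gaussCoord J k) := by
  simp only [exp_sum3, gaussCoord]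
  exact Integrable.fintype_prod (f := fun j (z : Fin k → Fin k → ℝ) =>
    ∏ a, ∏ b, Real.exp (c j a b * z a b)) fun j =>
      Integrable.fintype_prod (f := fun a (z : Fin k → ℝ) => ∏ b, Real.exp (c j a b * z b)) fun a =>
        Integrable.fintype_prod (f := fun b (z : ℝ) => Real.exp (c j a b * z)) fun b =>
          integrable_exp_mul_gaussianReal _

lemma integral_exp3 (c : J → Fin k → Fin k → ℝ) :
    ∫ x, Real.exp (∑ j, ∑ a, ∑ b, c j a b * x j a b) ∂gaussCoord J k =
      Real.exp ((∑ j, ∑ a, ∑ b, c j a b ^ 2) / (2 * k)) := by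
  simp only [gaussCoord, sum_div, Real.exp_sum]
  rw [integral_fintype_prod_eq_prod fun j (z : Fin k → Fin k → ℝ) =>
    ∏ a, ∏ b, Real.exp (c j a b * z a b)]
  refine prod_congr rfl fun j _ => ?_
  rw [integral_fintype_prod_eq_prod fun a (z : Fin k → ℝ) => ∏ b, Real.exp (c j a b * z b)]
  refine prod_congr rfl fun a _ => ?_
  rw [integral_fintype_prod_eq_prod fun b (z : ℝ) => Real.exp (c j a b * z)]
  exact prod_congr rfl fun b _ => integral_exp_lin _

lemma tail_form [DecidableEq J] (hk : 0 < k) (j : J) (v w : EuclideanSpace ℂ (Fin k))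
    (hv : ‖v‖ = 1) (hw : ‖w‖ = 1) :
    (gaussCoord J k).real {x | 4 ≤ form (herm (x j)) v w} ≤ Real.exp (-(8 * k)) := by
  set t : ℝ := 4 * k with ht
  set c : J → Fin k → Fin k → ℝ := fun l a b => if l = j then t * formCoef v w a b else 0
  have hX : ∀ x : J → Fin k → Fin k → ℝ,
      t * form (herm (x j)) v w = ∑ l, ∑ a, ∑ b, c l a b * x l a b := by
    intro x
    rw [sum_eq_single j (fun l _ hl => by simp [c, hl]) (by simp)]
    simp [c, form_eq, mul_sum, mul_assoc]
  have hint : Integrable (fun x => Real.exp (t * form (herm (x j)) v w)) (gaussCoord J k) := by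
    simp only [hX]
    exact integrable_exp3 c
  refine (measure_ge_le_exp_mul_mgf (X := fun x : J → Fin k → Fin k → ℝ => form (herm (x j)) v w)
    4 (by positivity) hint).trans ?_
  have hsq : ∑ l, ∑ a, ∑ b, c l a b ^ 2 ≤ t ^ 2 := by
    rw [sum_eq_single j (fun l _ hl => by simp [c, hl]) (by simp)]
    simp only [c, if_true, mul_pow, ← mul_sum]
    have := formCoef_sq_le v w
    rw [hv, hw] at this
    exact mul_le_of_le_one_right (sq_nonneg _) (by simpa using this)
  simp only [mgf, hX, integral_exp3, ← Real.exp_add]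
  refine Real.exp_le_exp.2 ?_
  have hk' : (0 : ℝ) < k := by exact_mod_cast hk
  have : (∑ l, ∑ a, ∑ b, c l a b ^ 2) / (2 * k) ≤ t ^ 2 / (2 * k) := by gcongr
  rw [show t ^ 2 / (2 * (k : ℝ)) = 8 * k by rw [ht]; field_simp; ring] at this
  linarith

/-- Gaussian Hermitian matrices have norm at most `16` with probability tending to one. -/
theorem tendsto_norm_bad [DecidableEq J] :
    Tendsto (fun k => (gaussCoord J k).real {x | ¬ ∀ j, OpLe (herm (x j)) 16}) atTop (𝓝 0) := by
  have hlim : Tendsto (fun k : ℕ => (Fintype.card J : ℝ) * (625 * Real.exp (-8)) ^ k) atTop (𝓝 0) := by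
    have h1 : 625 * Real.exp (-8) < 1 := by
      rw [Real.exp_neg, ← div_eq_mul_inv, div_lt_one (Real.exp_pos _),
        show (8 : ℝ) = ((8 : ℕ) : ℝ) * 1 by norm_num, Real.exp_nat_mul]
      exact lt_of_lt_of_le (by norm_num) (pow_le_pow_left₀ (by norm_num : (0:ℝ) ≤ 2.7)
        (le_trans (by norm_num) Real.exp_one_gt_d9.le) 8)
    simpa using (tendsto_pow_atTop_nhds_zero_of_lt_one (by positivity) h1).const_mul
      (Fintype.card J : ℝ)
  refine tendsto_of_tendsto_of_tendsto_of_le_of_le' tendsto_const_nhds hlim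
    (.of_forall fun _ => measureReal_nonneg) ?_
  filter_upwards [eventually_gt_atTop 0] with k hk
  obtain ⟨N, hcard, hN, hnet⟩ := exists_net k
  calc (gaussCoord J k).real {x | ¬ ∀ j, OpLe (herm (x j)) 16}
      ≤ (gaussCoord J k).real (⋃ i ∈ (univ : Finset J) ×ˢ N ×ˢ N,
          {x | 4 ≤ form (herm (x i.1)) i.2.1 i.2.2}) := by
        refine measureReal_mono ?_ (measure_ne_top _ _)
        intro x hx
        simp only [Set.mem_ofPred_eq, not_forall] at hx
        obtain ⟨j, hj⟩ := hx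
        by_contra hx'
        simp only [Set.mem_iUnion, Finset.mem_product, Set.mem_ofPred_eq, not_exists, not_le] at hx'
        exact hj (opLe_of_net _ N hnet fun v hv w hw =>
          (hx' (j, v, w) ⟨mem_univ _, hv, hw⟩).le)
    _ ≤ ∑ i ∈ (univ : Finset J) ×ˢ N ×ˢ N,
          (gaussCoord J k).real {x | 4 ≤ form (herm (x i.1)) i.2.1 i.2.2} :=
        measureReal_biUnion_finset_le _ _
    _ ≤ ∑ i ∈ (univ : Finset J) ×ˢ N ×ˢ N, Real.exp (-(8 * k)) := by
        refine sum_le_sum fun i hi => ?_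
        simp only [Finset.mem_product] at hi
        exact tail_form hk _ _ _ (hN _ hi.2.1) (hN _ hi.2.2)
    _ ≤ (Fintype.card J : ℝ) * (625 * Real.exp (-8)) ^ k := by
        rw [sum_const, nsmul_eq_mul, card_product, card_product, card_univ, mul_pow,
          ← Real.exp_nat_mul, show -(8 * (k : ℝ)) = k * -8 by ring, ← mul_assoc (Fintype.card J : ℝ)]
        refine mul_le_mul_of_nonneg_right ?_ (Real.exp_nonneg _)
        push_cast
        refine mul_le_mul_of_nonneg_left ?_ (Nat.cast_nonneg _)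
        have : (N.card : ℝ) ≤ 5 ^ (2 * k) := by exact_mod_cast hcard
        calc (N.card : ℝ) * N.card ≤ 5 ^ (2 * k) * 5 ^ (2 * k) := by gcongr
          _ = 625 ^ k := by rw [← pow_add, show 2 * k + 2 * k = 4 * k by omega, pow_mul]; norm_num

end

end VAgent.P087
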